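import Vale.Agent.P237.All.Finite.Cells.C20L
import Vale.Agent.P237.All.Finite.Cells.C20M
import Vale.Agent.P237.All.Finite.Cells.C20N
import Vale.Agent.P237.All.Finite.Cells.C20C
import Vale.Agent.P237.All.Finite.Cells.C20D

/-! P237, dimension 20: the cells join up from `17/1000` to `5/2`. -/

namespace Vale.Agent.P237.All.Finite

open Data in
/-- The bound for `p = 19` and every excess in `[17/1000, 5/2)`. -/
theorem rangeOk_low20 : RangeOk 19 (17 / 1000) (5 / 2) :=
  rangeOk_cells (l := [cell20L, cell20M, cell20N, cell20C, cell20D]) (by norm_num)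
    (List.forall_mem_cons.2 ⟨cell20L_ok, List.forall_mem_cons.2 ⟨cell20M_ok, List.forall_mem_cons.2 ⟨cell20N_ok, List.forall_mem_cons.2 ⟨cell20C_ok, List.forall_mem_cons.2 ⟨cell20D_ok, List.forall_mem_nil _⟩⟩⟩⟩⟩)
    (by decide +kernel)

end Vale.Agent.P237.All.Finite
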