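import Vale.Agent.P237.All.Finite.Cells.C21L
import Vale.Agent.P237.All.Finite.Cells.C21M
import Vale.Agent.P237.All.Finite.Cells.C21N
import Vale.Agent.P237.All.Finite.Cells.C21C
import Vale.Agent.P237.All.Finite.Cells.C21D

/-! P237, dimension 21: the cells join up from `17/1000` to `5/2`. -/

namespace Vale.Agent.P237.All.Finite

open Data in
/-- The bound for `p = 20` and every excess in `[17/1000, 5/2)`. -/
theorem rangeOk_low21 : RangeOk 20 (17 / 1000) (5 / 2) :=
  rangeOk_cells (l := [cell21L, cell21M, cell21N, cell21C, cell21D]) (by norm_num)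
    (List.forall_mem_cons.2 ⟨cell21L_ok, List.forall_mem_cons.2 ⟨cell21M_ok, List.forall_mem_cons.2 ⟨cell21N_ok, List.forall_mem_cons.2 ⟨cell21C_ok, List.forall_mem_cons.2 ⟨cell21D_ok, List.forall_mem_nil _⟩⟩⟩⟩⟩)
    (by decide +kernel)

end Vale.Agent.P237.All.Finite
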