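import Vale.Agent.P237.All.Finite.Cells.C22L
import Vale.Agent.P237.All.Finite.Cells.C22M
import Vale.Agent.P237.All.Finite.Cells.C22N
import Vale.Agent.P237.All.Finite.Cells.C22C
import Vale.Agent.P237.All.Finite.Cells.C22D

/-! P237, dimension 22: the cells join up from `17/1000` to `5/2`. -/

namespace Vale.Agent.P237.All.Finite

open Data in
/-- The bound for `p = 21` and every excess in `[17/1000, 5/2)`. -/
theorem rangeOk_low22 : RangeOk 21 (17 / 1000) (5 / 2) :=
  rangeOk_cells (l := [cell22L, cell22M, cell22N, cell22C, cell22D]) (by norm_num)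
    (List.forall_mem_cons.2 ⟨cell22L_ok, List.forall_mem_cons.2 ⟨cell22M_ok, List.forall_mem_cons.2 ⟨cell22N_ok, List.forall_mem_cons.2 ⟨cell22C_ok, List.forall_mem_cons.2 ⟨cell22D_ok, List.forall_mem_nil _⟩⟩⟩⟩⟩)
    (by decide +kernel)

end Vale.Agent.P237.All.Finite
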