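import Vale.Agent.P237.All.Finite.Cells.C23L
import Vale.Agent.P237.All.Finite.Cells.C23M
import Vale.Agent.P237.All.Finite.Cells.C23N
import Vale.Agent.P237.All.Finite.Cells.C23C
import Vale.Agent.P237.All.Finite.Cells.C23K
import Vale.Agent.P237.All.Finite.Cells.C23D

/-! P237, dimension 23: the cells join up from `17/1000` to `5/2`. -/

namespace Vale.Agent.P237.All.Finite

open Data in
/-- The bound for `p = 22` and every excess in `[17/1000, 5/2)`. -/
theorem rangeOk_low23 : RangeOk 22 (17 / 1000) (5 / 2) :=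
  rangeOk_cells (l := [cell23L, cell23M, cell23N, cell23C, cell23K, cell23D]) (by norm_num)
    (List.forall_mem_cons.2 ⟨cell23L_ok, List.forall_mem_cons.2 ⟨cell23M_ok, List.forall_mem_cons.2 ⟨cell23N_ok, List.forall_mem_cons.2 ⟨cell23C_ok, List.forall_mem_cons.2 ⟨cell23K_ok, List.forall_mem_cons.2 ⟨cell23D_ok, List.forall_mem_nil _⟩⟩⟩⟩⟩⟩)
    (by decide +kernel)

end Vale.Agent.P237.All.Finite
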