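import Vale.Agent.P237.All.Finite.Cells.C24L
import Vale.Agent.P237.All.Finite.Cells.C24M
import Vale.Agent.P237.All.Finite.Cells.C24N
import Vale.Agent.P237.All.Finite.Cells.C24C
import Vale.Agent.P237.All.Finite.Cells.C24K
import Vale.Agent.P237.All.Finite.Cells.C24D

/-! P237, dimension 24: the cells join up from `17/1000` to `5/2`. -/

namespace Vale.Agent.P237.All.Finite

open Data in
/-- The bound for `p = 23` and every excess in `[17/1000, 5/2)`. -/
theorem rangeOk_low24 : RangeOk 23 (17 / 1000) (5 / 2) :=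
  rangeOk_cells (l := [cell24L, cell24M, cell24N, cell24C, cell24K, cell24D]) (by norm_num)
    (List.forall_mem_cons.2 ⟨cell24L_ok, List.forall_mem_cons.2 ⟨cell24M_ok, List.forall_mem_cons.2 ⟨cell24N_ok, List.forall_mem_cons.2 ⟨cell24C_ok, List.forall_mem_cons.2 ⟨cell24K_ok, List.forall_mem_cons.2 ⟨cell24D_ok, List.forall_mem_nil _⟩⟩⟩⟩⟩⟩)
    (by decide +kernel)

end Vale.Agent.P237.All.Finite
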