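import Vale.Agent.P237.All.Finite.Cells.C26A
import Vale.Agent.P237.All.Finite.Cells.C26B
import Vale.Agent.P237.All.Finite.Cells.C26C1
import Vale.Agent.P237.All.Finite.Cells.C26C2
import Vale.Agent.P237.All.Finite.Cells.C26D

/-! P237, dimension 26: the cells join up from `13/1000` to `5/2`. -/

namespace Vale.Agent.P237.All.Finite

open Data in
/-- The bound for `p = 25` and every excess in `[13/1000, 5/2)`. -/
theorem rangeOk_low26 : RangeOk 25 (13 / 1000) (5 / 2) :=
  rangeOk_cells (l := [cell26A, cell26B, cell26C1, cell26C2, cell26D]) (by norm_num)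
    (List.forall_mem_cons.2 ⟨cell26A_ok, List.forall_mem_cons.2 ⟨cell26B_ok, List.forall_mem_cons.2 ⟨cell26C1_ok, List.forall_mem_cons.2 ⟨cell26C2_ok, List.forall_mem_cons.2 ⟨cell26D_ok, List.forall_mem_nil _⟩⟩⟩⟩⟩)
    (by decide +kernel)

end Vale.Agent.P237.All.Finite
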