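import Vale.Agent.P237.All.Finite.Cells.C29A
import Vale.Agent.P237.All.Finite.Cells.C29B
import Vale.Agent.P237.All.Finite.Cells.C29C1
import Vale.Agent.P237.All.Finite.Cells.C29C2
import Vale.Agent.P237.All.Finite.Cells.C29D

/-! P237, dimension 29: the cells join up from `13/1000` to `5/2`. -/

namespace Vale.Agent.P237.All.Finite

open Data in
/-- The bound for `p = 28` and every excess in `[13/1000, 5/2)`. -/
theorem rangeOk_low29 : RangeOk 28 (13 / 1000) (5 / 2) :=
  rangeOk_cells (l := [cell29A, cell29B, cell29C1, cell29C2, cell29D]) (by norm_num)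
    (List.forall_mem_cons.2 ⟨cell29A_ok, List.forall_mem_cons.2 ⟨cell29B_ok, List.forall_mem_cons.2 ⟨cell29C1_ok, List.forall_mem_cons.2 ⟨cell29C2_ok, List.forall_mem_cons.2 ⟨cell29D_ok, List.forall_mem_nil _⟩⟩⟩⟩⟩)
    (by decide +kernel)

end Vale.Agent.P237.All.Finite
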