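import Vale.Agent.P237.All.Finite.Cells.C35A
import Vale.Agent.P237.All.Finite.Cells.C35B
import Vale.Agent.P237.All.Finite.Cells.C35C
import Vale.Agent.P237.All.Finite.Cells.C35D

/-! P237, dimension 35: the cells join up from `14/1000` to `4/5`. -/

namespace Vale.Agent.P237.All.Finite

open Data in
/-- The bound for `p = 34` and every excess in `[14/1000, 4/5)`. -/
theorem rangeOk_low35 : RangeOk 34 (14 / 1000) (4 / 5) :=
  rangeOk_cells (l := [cell35A, cell35B, cell35C, cell35D]) (by norm_num)
    (List.forall_mem_cons.2 ⟨cell35A_ok, List.forall_mem_cons.2 ⟨cell35B_ok, List.forall_mem_cons.2 ⟨cell35C_ok, List.forall_mem_cons.2 ⟨cell35D_ok, List.forall_mem_nil _⟩⟩⟩⟩)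
    (by decide +kernel)

end Vale.Agent.P237.All.Finite
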