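import Vale.Agent.P237.All.Finite.Cells.C38A
import Vale.Agent.P237.All.Finite.Cells.C38B
import Vale.Agent.P237.All.Finite.Cells.C38C
import Vale.Agent.P237.All.Finite.Cells.C38D

/-! P237, dimension 38: the cells join up from `1/80` to `4/5`. -/

namespace Vale.Agent.P237.All.Finite

open Data in
/-- The bound for `p = 37` and every excess in `[1/80, 4/5)`. -/
theorem rangeOk_low38 : RangeOk 37 (1 / 80) (4 / 5) :=
  rangeOk_cells (l := [cell38A, cell38B, cell38C, cell38D]) (by norm_num)
    (List.forall_mem_cons.2 ⟨cell38A_ok, List.forall_mem_cons.2 ⟨cell38B_ok, List.forall_mem_cons.2 ⟨cell38C_ok, List.forall_mem_cons.2 ⟨cell38D_ok, List.forall_mem_nil _⟩⟩⟩⟩)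
    (by decide +kernel)

end Vale.Agent.P237.All.Finite
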