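import Vale.Agent.P237.All.Finite.Cells.C44A
import Vale.Agent.P237.All.Finite.Cells.C44B
import Vale.Agent.P237.All.Finite.Cells.C44C
import Vale.Agent.P237.All.Finite.Cells.C44D

/-! P237, dimension 44: the cells join up from `13/1000` to `4/5`. -/

namespace Vale.Agent.P237.All.Finite

open Data in
/-- The bound for `p = 43` and every excess in `[13/1000, 4/5)`. -/
theorem rangeOk_low44 : RangeOk 43 (13 / 1000) (4 / 5) :=
  rangeOk_cells (l := [cell44A, cell44B, cell44C, cell44D]) (by norm_num)
    (List.forall_mem_cons.2 ⟨cell44A_ok, List.forall_mem_cons.2 ⟨cell44B_ok, List.forall_mem_cons.2 ⟨cell44C_ok, List.forall_mem_cons.2 ⟨cell44D_ok, List.forall_mem_nil _⟩⟩⟩⟩)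
    (by decide +kernel)

end Vale.Agent.P237.All.Finite
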