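import Vale.Agent.P237.All.Finite.Cells.C46A
import Vale.Agent.P237.All.Finite.Cells.C46A2
import Vale.Agent.P237.All.Finite.Cells.C46B
import Vale.Agent.P237.All.Finite.Cells.C46C
import Vale.Agent.P237.All.Finite.Cells.C46D

/-! P237, dimension 46: the cells join up from `1/80` to `4/5`. -/

namespace Vale.Agent.P237.All.Finite

open Data in
/-- The bound for `p = 45` and every excess in `[1/80, 4/5)`. -/
theorem rangeOk_low46 : RangeOk 45 (1 / 80) (4 / 5) :=
  rangeOk_cells (l := [cell46A, cell46A2, cell46B, cell46C, cell46D]) (by norm_num)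
    (List.forall_mem_cons.2 ⟨cell46A_ok, List.forall_mem_cons.2 ⟨cell46A2_ok, List.forall_mem_cons.2 ⟨cell46B_ok, List.forall_mem_cons.2 ⟨cell46C_ok, List.forall_mem_cons.2 ⟨cell46D_ok, List.forall_mem_nil _⟩⟩⟩⟩⟩)
    (by decide +kernel)

end Vale.Agent.P237.All.Finite
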