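import Vale.Agent.P237.All.Finite.Cells.C48A
import Vale.Agent.P237.All.Finite.Cells.C48A2
import Vale.Agent.P237.All.Finite.Cells.C48B
import Vale.Agent.P237.All.Finite.Cells.C48C
import Vale.Agent.P237.All.Finite.Cells.C48D

/-! P237, dimension 48: the cells join up from `129/10000` to `4/5`. -/

namespace Vale.Agent.P237.All.Finite

open Data in
/-- The bound for `p = 47` and every excess in `[129/10000, 4/5)`. -/
theorem rangeOk_low48 : RangeOk 47 (129 / 10000) (4 / 5) :=
  rangeOk_cells (l := [cell48A, cell48A2, cell48B, cell48C, cell48D]) (by norm_num)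
    (List.forall_mem_cons.2 ⟨cell48A_ok, List.forall_mem_cons.2 ⟨cell48A2_ok, List.forall_mem_cons.2 ⟨cell48B_ok, List.forall_mem_cons.2 ⟨cell48C_ok, List.forall_mem_cons.2 ⟨cell48D_ok, List.forall_mem_nil _⟩⟩⟩⟩⟩)
    (by decide +kernel)

end Vale.Agent.P237.All.Finite
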