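import Vale.Agent.P237.All.Finite.Cells.C50W
import Vale.Agent.P237.All.Finite.Cells.C50B
import Vale.Agent.P237.All.Finite.Cells.C50B2
import Vale.Agent.P237.All.Finite.Cells.C50C
import Vale.Agent.P237.All.Finite.Cells.C50D
import Vale.Agent.P237.All.Finite.Cells.C50D2
import Vale.Agent.P237.All.Finite.Cells.C50E

/-! P237, dimension 50: the cells join up from `1/80` to `4/5`. -/

namespace Vale.Agent.P237.All.Finite

open Data in
/-- The bound for `p = 49` and every excess in `[1/80, 4/5)`. -/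
theorem rangeOk_low50 : RangeOk 49 (1 / 80) (4 / 5) :=
  rangeOk_cells (l := [cell50W, cell50B, cell50B2, cell50C, cell50D, cell50D2, cell50E]) (by norm_num)
    (List.forall_mem_cons.2 ⟨cell50W_ok, List.forall_mem_cons.2 ⟨cell50B_ok, List.forall_mem_cons.2 ⟨cell50B2_ok, List.forall_mem_cons.2 ⟨cell50C_ok, List.forall_mem_cons.2 ⟨cell50D_ok, List.forall_mem_cons.2 ⟨cell50D2_ok, List.forall_mem_cons.2 ⟨cell50E_ok, List.forall_mem_nil _⟩⟩⟩⟩⟩⟩⟩)
    (by decide +kernel)

end Vale.Agent.P237.All.Finite
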