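import Vale.Agent.P237.All.Finite.Cells.C51A
import Vale.Agent.P237.All.Finite.Cells.C51B
import Vale.Agent.P237.All.Finite.Cells.C51C
import Vale.Agent.P237.All.Finite.Cells.C51D
import Vale.Agent.P237.All.Finite.Cells.C51E

/-! P237, dimension 51: the cells join up from `12/1000` to `4/5`. -/

namespace Vale.Agent.P237.All.Finite

open Data in
/-- The bound for `p = 50` and every excess in `[12/1000, 4/5)`. -/
theorem rangeOk_low51 : RangeOk 50 (12 / 1000) (4 / 5) :=
  rangeOk_cells (l := [cell51A, cell51B, cell51C, cell51D, cell51E]) (by norm_num)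
    (List.forall_mem_cons.2 ⟨cell51A_ok, List.forall_mem_cons.2 ⟨cell51B_ok, List.forall_mem_cons.2 ⟨cell51C_ok, List.forall_mem_cons.2 ⟨cell51D_ok, List.forall_mem_cons.2 ⟨cell51E_ok, List.forall_mem_nil _⟩⟩⟩⟩⟩)
    (by decide +kernel)

end Vale.Agent.P237.All.Finite
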