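import Vale.Agent.P237.All.Finite.Cells.C52A
import Vale.Agent.P237.All.Finite.Cells.C52B1
import Vale.Agent.P237.All.Finite.Cells.C52B2
import Vale.Agent.P237.All.Finite.Cells.C52C
import Vale.Agent.P237.All.Finite.Cells.C52C2
import Vale.Agent.P237.All.Finite.Cells.C52D
import Vale.Agent.P237.All.Finite.Cells.C52E

/-! P237, dimension 52: the cells join up from `12/1000` to `4/5`. -/

namespace Vale.Agent.P237.All.Finite

open Data in
/-- The bound for `p = 51` and every excess in `[12/1000, 4/5)`. -/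
theorem rangeOk_low52 : RangeOk 51 (12 / 1000) (4 / 5) :=
  rangeOk_cells (l := [cell52A, cell52B1, cell52B2, cell52C, cell52C2, cell52D, cell52E]) (by norm_num)
    (List.forall_mem_cons.2 ⟨cell52A_ok, List.forall_mem_cons.2 ⟨cell52B1_ok, List.forall_mem_cons.2 ⟨cell52B2_ok, List.forall_mem_cons.2 ⟨cell52C_ok, List.forall_mem_cons.2 ⟨cell52C2_ok, List.forall_mem_cons.2 ⟨cell52D_ok, List.forall_mem_cons.2 ⟨cell52E_ok, List.forall_mem_nil _⟩⟩⟩⟩⟩⟩⟩)
    (by decide +kernel)

end Vale.Agent.P237.All.Finite
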