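import Vale.Agent.P237.All.Finite.Cells.C53A
import Vale.Agent.P237.All.Finite.Cells.C53B
import Vale.Agent.P237.All.Finite.Cells.C53C
import Vale.Agent.P237.All.Finite.Cells.C53D

/-! P237, dimension 53: the cells join up from `13/1000` to `4/5`. -/

namespace Vale.Agent.P237.All.Finite

open Data in
/-- The bound for `p = 52` and every excess in `[13/1000, 4/5)`. -/
theorem rangeOk_low53 : RangeOk 52 (13 / 1000) (4 / 5) :=
  rangeOk_cells (l := [cell53A, cell53B, cell53C, cell53D]) (by norm_num)
    (List.forall_mem_cons.2 ⟨cell53A_ok, List.forall_mem_cons.2 ⟨cell53B_ok, List.forall_mem_cons.2 ⟨cell53C_ok, List.forall_mem_cons.2 ⟨cell53D_ok, List.forall_mem_nil _⟩⟩⟩⟩)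
    (by decide +kernel)

end Vale.Agent.P237.All.Finite
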