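import Vale.Agent.P237.All.Finite.Cells.C54A
import Vale.Agent.P237.All.Finite.Cells.C54B
import Vale.Agent.P237.All.Finite.Cells.C54C
import Vale.Agent.P237.All.Finite.Cells.C54E
import Vale.Agent.P237.All.Finite.Cells.C54F

/-! P237, dimension 54: the cells join up from `1/80` to `4/5`. -/

namespace Vale.Agent.P237.All.Finite

open Data in
/-- The bound for `p = 53` and every excess in `[1/80, 4/5)`. -/
theorem rangeOk_low54 : RangeOk 53 (1 / 80) (4 / 5) :=
  rangeOk_cells (l := [cell54A, cell54B, cell54C, cell54E, cell54F]) (by norm_num)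
    (List.forall_mem_cons.2 ⟨cell54A_ok, List.forall_mem_cons.2 ⟨cell54B_ok, List.forall_mem_cons.2 ⟨cell54C_ok, List.forall_mem_cons.2 ⟨cell54E_ok, List.forall_mem_cons.2 ⟨cell54F_ok, List.forall_mem_nil _⟩⟩⟩⟩⟩)
    (by decide +kernel)

end Vale.Agent.P237.All.Finite
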