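import Vale.Agent.P237.All.Finite.Cells.C47A
import Vale.Agent.P237.All.Finite.Cells.C47A2
import Vale.Agent.P237.All.Finite.Cells.C47B
import Vale.Agent.P237.All.Finite.Cells.C47C
import Vale.Agent.P237.All.Finite.Cells.C47D

/-! P237, dimension 47: the cells join up from `13/1000` to `4/5`. -/

namespace Vale.Agent.P237.All.Finite

open Data in
/-- The bound for `p = 46` and every excess in `[13/1000, 4/5)`. -/
theorem rangeOk_low47 : RangeOk 46 (13 / 1000) (4 / 5) :=
  rangeOk_cells (l := [cell47A, cell47A2, cell47B, cell47C, cell47D]) (by norm_num)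
    (List.forall_mem_cons.2 ⟨cell47A_ok, List.forall_mem_cons.2 ⟨cell47A2_ok, List.forall_mem_cons.2 ⟨cell47B_ok, List.forall_mem_cons.2 ⟨cell47C_ok, List.forall_mem_cons.2 ⟨cell47D_ok, List.forall_mem_nil _⟩⟩⟩⟩⟩)
    (by decide +kernel)

end Vale.Agent.P237.All.Finite
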